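import Vale.Agent.P084.US.Smooth

/-!
The tangent isometries of a sphere isometry between uniformly smooth spaces.
-/

open Filter Set Metric
open scoped Topology

noncomputable section

namespace Vale.Agent.P084.US

variable {X Y : Type*} [NormedAddCommGroup X] [NormedSpace ℝ X] [NormedAddCommGroup Y]
  [NormedSpace ℝ Y]

/-- Radial projection. -/
def rad (v : X) : X := ‖v‖⁻¹ • v

lemma norm_rad {v : X} (hv : v ≠ 0) : ‖rad v‖ = 1 := by simp [rad, norm_smul, hv]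

lemma rad_sub {v : X} (hv : v ≠ 0) : ‖rad v - v‖ = |‖v‖ - 1| := by
  have hp : 0 < ‖v‖ := norm_pos_iff.mpr hv
  rw [show rad v - v = (1 - ‖v‖) • rad v by
    simp only [rad]
    rw [sub_smul, one_smul, smul_smul, mul_inv_cancel₀ hp.ne', one_smul],
    norm_smul, norm_rad hv, mul_one, Real.norm_eq_abs, abs_sub_comm]

/-- Nearby chords of the sphere point in every tangent direction. -/
lemma dir (hS : USm X) {ε : ℝ} (hε : 0 < ε) (hε1 : ε ≤ 1 / 4) :
    ∃ σ > 0, ∀ y v : X, ‖y‖ = 1 → ‖v‖ ≤ 4 * |nf y v| ∨ ∃ c : X, ‖c‖ = 1 ∧ σ / 2 ≤ ‖c - y‖ ∧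
      ‖v‖ ≤ 2 * |nf (c - y) v| + 6 * |nf y v| := by
  obtain ⟨δ, hδ, hu⟩ := upper hS hε
  refine ⟨δ, hδ, fun y v hy ↦ ?_⟩
  set v₀ := v - nf y v • y
  have hv₀ : ‖v‖ ≤ ‖v₀‖ + |nf y v| := by
    calc ‖v‖ = ‖v₀ + nf y v • y‖ := by simp [v₀]
      _ ≤ _ := (norm_add_le _ _).trans (by rw [norm_smul, hy, Real.norm_eq_abs, mul_one])
  rcases eq_or_ne v₀ 0 with h0 | h0
  · left; rw [h0, norm_zero, zero_add] at hv₀; linarith [abs_nonneg (nf y v)]
  right
  have hn : 0 < ‖v₀‖ := norm_pos_iff.mpr h0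
  set q := ‖v₀‖⁻¹ • v₀
  have hq : ‖q‖ = 1 := by simp [q, norm_smul, h0]
  have hyq : nf y q = 0 := by
    simp [q, v₀, nf_one hy]
  set z := y + δ • q
  have hz1 : 1 ≤ ‖z‖ := by
    have := nf_lower y (δ • q); rw [map_smul, hyq, smul_zero, add_zero, hy] at this; exact this
  have hz2 : ‖z‖ ≤ 1 + ε * δ := by
    have := hu y (δ • q) (by rw [norm_smul_of_nonneg hδ.le, hq, hy])
    rw [map_smul, hyq, smul_zero, add_zero, hy, norm_smul_of_nonneg hδ.le, hq, mul_one] at this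
    exact this
  have hz0 : z ≠ 0 := fun h ↦ by rw [h, norm_zero] at hz1; linarith
  set u := rad z - y
  have hu1 : ‖u - δ • q‖ ≤ ε * δ := by
    rw [show u - δ • q = rad z - z by simp only [u, z]; abel, rad_sub hz0,
      abs_of_nonneg (by linarith)]
    linarith
  have hu2 : δ - ε * δ ≤ ‖u‖ := by
    have := norm_sub_norm_le (δ • q) u
    rw [norm_smul_of_nonneg hδ.le, hq, mul_one] at this
    linarith [norm_sub_rev (δ • q) u]
  refine ⟨rad z, norm_rad hz0, by nlinarith, ?_⟩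
  have h1 : δ * (1 - 2 * ε) ≤ δ * nf u q := by
    have l1 := nf_le' u (u - δ • q)
    rw [map_sub, nf_self, map_smul, smul_eq_mul] at l1
    nlinarith
  have h2 : 1 / 2 ≤ nf u q := by
    have := le_of_mul_le_mul_left h1 hδ
    linarith
  have h3 : ‖v₀‖ / 2 ≤ nf u v₀ := by
    have : nf u v₀ = ‖v₀‖ * nf u q := by
      simp only [q, map_smul, smul_eq_mul]; field_simp
    rw [this]; nlinarith
  have h4 : nf u v₀ ≤ |nf u v| + |nf y v| := by
    simp only [v₀, map_sub, map_smul, smul_eq_mul]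
    have := abs_mul (nf y v) (nf u y)
    have h5 : |nf u y| ≤ 1 := hy ▸ nf_le u y
    nlinarith [le_abs_self (nf u v), neg_le_abs (nf y v * nf u y), abs_nonneg (nf y v)]
  show ‖v‖ ≤ 2 * |nf u v| + 6 * |nf y v|
  linarith [abs_nonneg (nf y v)]

lemma sep (hS : USm X) {y v : X} (hy : ‖y‖ = 1) (hv : nf y v = 0)
    (h : ∀ c : X, ‖c‖ = 1 → c ≠ y → nf (c - y) v = 0) : v = 0 := by
  obtain ⟨σ, hσ, hd⟩ := dir hS (ε := 1 / 4) (by norm_num) le_rfl
  rcases hd y v hy with hd | ⟨c, hc, hcy, hd⟩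
  · rw [hv, abs_zero, mul_zero] at hd; exact norm_le_zero_iff.mp hd
  · have hne : c ≠ y := fun e ↦ by rw [e, sub_self, norm_zero] at hcy; linarith
    rw [hv, h c hc hne, abs_zero] at hd
    exact norm_le_zero_iff.mp (by linarith)

variable (F : X → Y) {G : Y → X}

/-- Difference quotient of `F` along the sphere. -/
def quot (s : ℝ) (a h : X) : Y := s⁻¹ • (F (rad (a + s • h)) - F a)

/-- The derivative along the sphere. -/
def D (a h : X) : Y :=
  limUnder atTop fun k : ℕ ↦ quot F (1 / (k + 1)) a h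

variable {F}

lemma step (e : SphereExt F G) (hX : USm X) (hY : USm Y) {ε : ℝ} (hε : 0 < ε) (hε1 : ε ≤ 1) :
    ∃ δ > 0, ∀ a h : X, ∀ s : ℝ, ‖a‖ = 1 → nf a h = 0 → 0 < s → s * ‖h‖ ≤ δ →
      |‖quot F s a h‖ - ‖h‖| ≤ ε * ‖h‖ ∧ |nf (F a) (quot F s a h)| ≤ 2 * ε * ‖h‖ ∧
      ∀ c : X, ‖c‖ = 1 → s * ‖h‖ ≤ δ * ‖c - a‖ →
        |nf (F c - F a) (quot F s a h) - nf (c - a) h| ≤ 4 * ε * ‖h‖ := by
  obtain ⟨δ₁, hδ₁, hu₁⟩ := upper hX hε
  obtain ⟨δ₂, hδ₂, hu₂⟩ := upper hY hε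
  refine ⟨min δ₁ (δ₂ / 2), by positivity, fun a h s ha hah hs hsh ↦ ?_⟩
  have hcone : ∀ c d : X, ‖c‖ = 1 → ‖d‖ = 1 → ‖F c - F d‖ = ‖c - d‖ := fun c d hc hd ↦ by
    simpa [hc, hd] using e.hcone c d
  set v := a + s • h
  have hsn : ‖s • h‖ = s * ‖h‖ := norm_smul_of_nonneg hs.le h
  have hv1 : 1 ≤ ‖v‖ := by
    have := nf_lower a (s • h); rw [map_smul, hah, smul_zero, add_zero, ha] at this; exact this
  have hv2 : ‖v‖ ≤ 1 + ε * (s * ‖h‖) := by
    have := hu₁ a (s • h) (by rw [hsn, ha, mul_one]; exact hsh.trans (min_le_left _ _))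
    rw [map_smul, hah, smul_zero, add_zero, ha, hsn] at this
    exact this
  have hv0 : v ≠ 0 := fun h0 ↦ by rw [h0, norm_zero] at hv1; linarith
  have hr : ‖rad v - v‖ ≤ ε * (s * ‖h‖) := by
    rw [rad_sub hv0, abs_of_nonneg (by linarith)]; linarith
  set d := quot F s a h
  have hd : F (rad v) = F a + s • d := by
    simp [d, quot, smul_smul, hs.ne', v]
  have hdn : s * ‖d‖ = ‖rad v - a‖ := by
    rw [← norm_smul_of_nonneg hs.le, ← hcone _ _ (norm_rad hv0) ha, hd, add_sub_cancel_left]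
  have h1 : |‖rad v - a‖ - s * ‖h‖| ≤ ε * (s * ‖h‖) := by
    rw [← hsn]
    refine (abs_norm_sub_norm_le _ _).trans ?_
    rw [hsn, show rad v - a - s • h = rad v - v by simp only [v]; abel]
    exact hr
  have hn : |‖d‖ - ‖h‖| ≤ ε * ‖h‖ := by
    refine le_of_mul_le_mul_left (a := s) ?_ hs
    rw [← abs_of_pos hs, ← abs_mul, abs_of_pos hs, mul_sub, hdn]
    linarith
  have hd2 : s * ‖d‖ ≤ 2 * (s * ‖h‖) := by
    have h' := (abs_le.mp hn).2
    have h'' : ‖d‖ ≤ 2 * ‖h‖ := by nlinarith [norm_nonneg h]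
    nlinarith
  have hsd : ‖s • d‖ = s * ‖d‖ := norm_smul_of_nonneg hs.le d
  refine ⟨hn, ?_, fun c hc hcs ↦ ?_⟩
  · have hFa : ‖F a‖ = 1 := by rw [e.hnorm, ha]
    have hFv : ‖F a + s • d‖ = 1 := by rw [← hd, e.hnorm, norm_rad hv0]
    have l1 := nf_lower (F a) (s • d)
    have l2 := hu₂ (F a) (s • d) (by
      rw [hsd, hFa, mul_one]; linarith [hsh.trans (min_le_right δ₁ (δ₂ / 2))])
    rw [hFa, hFv, map_smul, smul_eq_mul] at l1
    rw [hFa, hFv, map_smul, smul_eq_mul, hsd] at l2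
    refine le_of_mul_le_mul_left (a := s) ?_ hs
    rw [← abs_of_pos hs, ← abs_mul, abs_of_pos hs, abs_le]
    constructor <;> nlinarith
  · set r := ‖c - a‖
    have hr' : ‖F c - F a‖ = r := hcone c a hc ha
    have hA : ‖(F c - F a) + -(s • d)‖ = ‖c - rad v‖ := by
      rw [← hcone c _ hc (norm_rad hv0), hd]; congr 1; abel
    have hA' : |‖c - rad v‖ - ‖(c - a) + -(s • h)‖| ≤ ε * (s * ‖h‖) := by
      refine (abs_norm_sub_norm_le _ _).trans ((le_of_eq ?_).trans hr)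
      rw [← norm_neg]; congr 1; simp only [v]; abel
    have x1 := nf_lower (c - a) (-(s • h))
    have x2 := hu₁ (c - a) (-(s • h)) (by
      rw [norm_neg, hsn]; exact hcs.trans (by gcongr; exact min_le_left _ _))
    have y1 := nf_lower (F c - F a) (-(s • d))
    have y2 := hu₂ (F c - F a) (-(s • d)) (by
      rw [norm_neg, hsd, hr']
      have : min δ₁ (δ₂ / 2) * r ≤ δ₂ / 2 * r := by gcongr; exact min_le_right _ _
      linarith)
    rw [hA] at y1 y2
    rw [map_neg, map_smul, smul_eq_mul] at x1 x2 y1 y2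
    rw [norm_neg] at x2 y2
    rw [hsn] at x2
    rw [hsd, hr'] at y2
    rw [hr'] at y1
    have := abs_le.mp hA'
    refine le_of_mul_le_mul_left (a := s) ?_ hs
    rw [← abs_of_pos hs, ← abs_mul, abs_of_pos hs, abs_le]
    constructor <;> nlinarith

lemma cauchy (e : SphereExt F G) (hX : USm X) (hY : USm Y) (R : ℝ) {η : ℝ} (hη : 0 < η) :
    ∃ K : ℕ, ∀ a h : X, ‖a‖ = 1 → nf a h = 0 → ‖h‖ ≤ R → ∀ k ≥ K, ∀ l ≥ K,
      ‖quot F (1 / ((k : ℝ) + 1)) a h - quot F (1 / ((l : ℝ) + 1)) a h‖ ≤ η := by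
  set ε := min (1 / 4) (η / (48 * (|R| + 1)))
  have hε : 0 < ε := by positivity
  obtain ⟨σ, hσ, hd⟩ := dir hY hε (min_le_left _ _)
  obtain ⟨δ, hδ, hst⟩ := step e hX hY hε (by linarith [min_le_left (1 / 4) (η / (48 * (|R| + 1)))])
  obtain ⟨K, hK⟩ := exists_nat_gt ((|R| + 1) / min δ (δ * σ / 2))
  refine ⟨K, fun a h ha hah hh k hk l hl ↦ ?_⟩
  have hR : ‖h‖ ≤ |R| + 1 := by linarith [le_abs_self R]
  have hs : ∀ j ≥ K, 0 < 1 / ((j : ℝ) + 1) ∧ 1 / ((j : ℝ) + 1) * ‖h‖ ≤ min δ (δ * σ / 2) := by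
    intro j hj
    refine ⟨by positivity, ?_⟩
    rw [div_mul_eq_mul_div, one_mul, div_le_iff₀ (by positivity)]
    rw [div_lt_iff₀ (by positivity)] at hK
    have : (K : ℝ) ≤ j := by exact_mod_cast hj
    have hmin : 0 ≤ min δ (δ * σ / 2) := by positivity
    nlinarith
  obtain ⟨-, hk2, hk3⟩ := hst a h _ ha hah (hs k hk).1 ((hs k hk).2.trans (min_le_left _ _))
  obtain ⟨-, hl2, hl3⟩ := hst a h _ ha hah (hs l hl).1 ((hs l hl).2.trans (min_le_left _ _))
  set p := quot F (1 / ((k : ℝ) + 1)) a h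
  set q := quot F (1 / ((l : ℝ) + 1)) a h
  have hεR : ε * ‖h‖ ≤ η / 48 := by
    calc ε * ‖h‖ ≤ η / (48 * (|R| + 1)) * (|R| + 1) := by
          gcongr; exact min_le_right _ _
      _ = η / 48 := by field_simp
  have hy : |nf (F a) (p - q)| ≤ η / 12 := by
    rw [map_sub]; refine (abs_sub _ _).trans ?_; linarith
  rcases hd (F a) (p - q) (by rw [e.hnorm, ha]) with hd | ⟨c', hc', hcy, hd⟩
  · linarith
  · set c := G c'
    have hc : ‖c‖ = 1 := by rw [e.symm.hnorm, hc']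
    have hca : ‖c - a‖ = ‖c' - F a‖ := by
      have := e.hcone c a
      rw [e.right, hc, ha] at this
      simpa using this.symm
    have hle : δ * σ / 2 ≤ δ * ‖c - a‖ := by
      rw [hca, mul_div_assoc]; gcongr
    have a1 := hk3 c hc (((hs k hk).2.trans (min_le_right _ _)).trans hle)
    have a2 := hl3 c hc (((hs l hl).2.trans (min_le_right _ _)).trans hle)
    rw [e.right] at a1 a2
    have hc2 : |nf (c' - F a) (p - q)| ≤ η / 6 := by
      rw [map_sub, ← sub_sub_sub_cancel_right _ _ (nf (c - a) h)]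
      refine (abs_sub _ _).trans ?_; linarith
    linarith

variable [CompleteSpace Y] (e : SphereExt F G) (hX : USm X) (hY : USm Y)
include e hX hY

lemma tendsto_D {a h : X} (ha : ‖a‖ = 1) (hah : nf a h = 0) :
    Tendsto (fun k : ℕ ↦ quot F (1 / (k + 1)) a h) atTop (𝓝 (D F a h)) := by
  refine CauchySeq.tendsto_limUnder (Metric.cauchySeq_iff.mpr fun η hη ↦ ?_)
  obtain ⟨K, hK⟩ := cauchy e hX hY ‖h‖ (half_pos hη)
  exact ⟨K, fun m hm n hn ↦ by
    rw [dist_eq_norm]; linarith [hK a h ha hah le_rfl m hm n hn]⟩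

lemma small {a h : X} {δ : ℝ} (hδ : 0 < δ) :
    ∀ᶠ k : ℕ in atTop, ‖a‖ = 1 → 1 / ((k : ℝ) + 1) * ‖h‖ ≤ δ := by
  have : Tendsto (fun k : ℕ ↦ 1 / ((k : ℝ) + 1) * ‖h‖) atTop (𝓝 0) := by
    simpa using tendsto_one_div_add_atTop_nhds_zero_nat.mul_const ‖h‖
  filter_upwards [this.eventually (eventually_le_nhds hδ)] with k hk _ using hk

lemma norm_D {a h : X} (ha : ‖a‖ = 1) (hah : nf a h = 0) : ‖D F a h‖ = ‖h‖ := by
  refine tendsto_nhds_unique (tendsto_D e hX hY ha hah).norm ?_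
  rw [Metric.tendsto_nhds]
  intro η hη
  set ε := min 1 (η / (‖h‖ + 1))
  have hε : 0 < ε := by positivity
  obtain ⟨δ, hδ, hst⟩ := step e hX hY hε (min_le_left _ _)
  filter_upwards [small e hX hY (a := a) (h := h) hδ] with k hk
  obtain ⟨h1, -, -⟩ := hst a h _ ha hah (by positivity) (hk ha)
  rw [Real.dist_eq]
  calc _ ≤ ε * ‖h‖ := h1
    _ < η := by
      have : ε * (‖h‖ + 1) ≤ η := by
        have := min_le_right 1 (η / (‖h‖ + 1))
        rwa [le_div_iff₀ (by positivity)] at this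
      nlinarith

lemma nf_D {a h : X} (ha : ‖a‖ = 1) (hah : nf a h = 0) : nf (F a) (D F a h) = 0 := by
  refine tendsto_nhds_unique (((nf (F a)).continuous.tendsto _).comp (tendsto_D e hX hY ha hah)) ?_
  rw [Metric.tendsto_nhds]
  intro η hη
  set ε := min 1 (η / (4 * (‖h‖ + 1)))
  have hε : 0 < ε := by positivity
  obtain ⟨δ, hδ, hst⟩ := step e hX hY hε (min_le_left _ _)
  filter_upwards [small e hX hY (a := a) (h := h) hδ] with k hk
  obtain ⟨-, h1, -⟩ := hst a h _ ha hah (by positivity) (hk ha)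
  rw [Real.dist_eq, sub_zero]
  calc _ ≤ 2 * ε * ‖h‖ := h1
    _ < η := by
      have : ε * (4 * (‖h‖ + 1)) ≤ η := by
        have := min_le_right 1 (η / (4 * (‖h‖ + 1)))
        rwa [le_div_iff₀ (by positivity)] at this
      nlinarith

/-- Transport of the gradient of the distance functions. -/
lemma chord {a h c : X} (ha : ‖a‖ = 1) (hah : nf a h = 0) (hc : ‖c‖ = 1) (hca : c ≠ a) :
    nf (F c - F a) (D F a h) = nf (c - a) h := by
  refine tendsto_nhds_unique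
    (((nf (F c - F a)).continuous.tendsto _).comp (tendsto_D e hX hY ha hah)) ?_
  rw [Metric.tendsto_nhds]
  intro η hη
  set ε := min 1 (η / (8 * (‖h‖ + 1)))
  have hε : 0 < ε := by positivity
  obtain ⟨δ, hδ, hst⟩ := step e hX hY hε (min_le_left _ _)
  have hr : 0 < ‖c - a‖ := norm_pos_iff.mpr (sub_ne_zero.mpr hca)
  filter_upwards [small e hX hY (a := a) (h := h) hδ,
    small e hX hY (a := a) (h := h) (mul_pos hδ hr)] with k hk hk'
  obtain ⟨-, -, h1⟩ := hst a h _ ha hah (by positivity) (hk ha)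
  rw [Real.dist_eq]
  calc _ ≤ 4 * ε * ‖h‖ := h1 c hc (hk' ha)
    _ < η := by
      have : ε * (8 * (‖h‖ + 1)) ≤ η := by
        have := min_le_right 1 (η / (8 * (‖h‖ + 1)))
        rwa [le_div_iff₀ (by positivity)] at this
      nlinarith

lemma D_unique {a h : X} {q : Y} (ha : ‖a‖ = 1) (hah : nf a h = 0) (hq : nf (F a) q = 0)
    (h' : ∀ c : X, ‖c‖ = 1 → c ≠ a → nf (F c - F a) q = nf (c - a) h) : D F a h = q := by
  refine sub_eq_zero.mp (sep hY (y := F a) (by rw [e.hnorm, ha])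
    (by rw [map_sub, nf_D e hX hY ha hah, hq, sub_zero]) fun c' hc' hne ↦ ?_)
  have hc : ‖G c'‖ = 1 := by rw [e.symm.hnorm, hc']
  have hne' : G c' ≠ a := fun hh ↦ hne (by rw [← hh, e.right])
  have h1 := chord e hX hY ha hah hc hne'
  have h2 := h' _ hc hne'
  rw [e.right] at h1 h2
  rw [map_sub, h1, h2, sub_self]

lemma D_lin {a h k : X} (ha : ‖a‖ = 1) (hah : nf a h = 0) (hak : nf a k = 0) (s t : ℝ) :
    D F a (s • h + t • k) = s • D F a h + t • D F a k := by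
  refine D_unique e hX hY ha (by simp [hah, hak]) ?_ fun c hc hne ↦ ?_
  · simp [nf_D e hX hY ha hah, nf_D e hX hY ha hak]
  · simp [chord e hX hY ha hah hc hne, chord e hX hY ha hak hc hne]

lemma D_sub {a h k : X} (ha : ‖a‖ = 1) (hah : nf a h = 0) (hak : nf a k = 0) :
    D F a (h - k) = D F a h - D F a k := by
  simpa [sub_eq_add_neg] using D_lin e hX hY ha hah hak 1 (-1)

lemma D_neg (hodd : ∀ c, F (-c) = -F c) {a h : X} (ha : ‖a‖ = 1) (hah : nf a h = 0) :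
    D F (-a) h = D F a h := by
  have ha0 : a ≠ 0 := fun h0 ↦ by simp [h0] at ha
  have hF0 : F a ≠ 0 := e.ne_zero ha0
  refine D_unique e hX hY (by rw [norm_neg, ha]) (by rw [nf_neg hX a h ha0, hah, neg_zero]) ?_
    fun c hc hne ↦ ?_
  · rw [hodd, nf_neg hY _ _ hF0, nf_D e hX hY ha hah, neg_zero]
  · have hne' : -c ≠ a := fun h0 ↦ hne (by rw [← h0, neg_neg])
    have := chord e hX hY ha hah (c := -c) (by rw [norm_neg, hc]) hne'
    rw [hodd] at this ⊢
    have e1 : -c - a = -(c - -a) := by abel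
    have e2 : -F c - F a = -(F c - -F a) := by abel
    have h1 : c - -a ≠ 0 := sub_ne_zero.mpr hne
    have h2 : F c - -F a ≠ 0 := by
      intro h0
      apply hne
      rw [sub_eq_zero, ← hodd] at h0
      rw [← e.left c, h0, e.left]
    rw [e1, e2, nf_neg hX _ _ h1, nf_neg hY _ _ h2, neg_inj] at this
    exact this

lemma D_continuousOn {Ω : Type*} [TopologicalSpace Ω] {s : Set Ω} {a h : Ω → X} {R : ℝ}
    (ha : ContinuousOn a s) (hh : ContinuousOn h s) (ha1 : ∀ w ∈ s, ‖a w‖ = 1)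
    (hah : ∀ w ∈ s, nf (a w) (h w) = 0) (hR : ∀ w ∈ s, ‖h w‖ ≤ R) :
    ContinuousOn (fun w ↦ D F (a w) (h w)) s := by
  refine TendstoUniformlyOn.continuousOn
    (F := fun (k : ℕ) w ↦ quot F (1 / ((k : ℝ) + 1)) (a w) (h w)) (p := atTop) ?_ ?_
  · rw [Metric.tendstoUniformlyOn_iff]
    intro η hη
    obtain ⟨K, hK⟩ := cauchy e hX hY R (half_pos hη)
    filter_upwards [eventually_ge_atTop K] with k hk w hw
    rw [dist_eq_norm]
    have : ‖D F (a w) (h w) - quot F (1 / ((k : ℝ) + 1)) (a w) (h w)‖ ≤ η / 2 :=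
      le_of_tendsto ((tendsto_D e hX hY (ha1 w hw) (hah w hw)).sub_const _).norm
        (by filter_upwards [eventually_ge_atTop K] with l hl using
          hK _ _ (ha1 w hw) (hah w hw) (hR w hw) l hl k hk)
    linarith
  · refine Frequently.of_forall fun k ↦ ?_
    have hv : ContinuousOn (fun w ↦ a w + (1 / ((k : ℝ) + 1)) • h w) s :=
      ha.add (hh.const_smul (1 / ((k : ℝ) + 1)))
    refine ContinuousOn.const_smul ((e.continuous.comp_continuousOn ?_).sub
      (e.continuous.comp_continuousOn ha)) _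
    refine (hv.norm.inv₀ fun w hw h0 ↦ ?_).smul hv
    have := nf_lower (a w) ((1 / ((k : ℝ) + 1)) • h w)
    rw [map_smul, hah w hw, smul_zero, add_zero, ha1 w hw, h0] at this
    linarith

end Vale.Agent.P084.US
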