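import Vale.Agent.P084.US.Deriv
import Mathlib.Analysis.Convex.Uniform

/-!
Monotone increments along an isometric orbit in a uniformly convex space.
-/

open Filter Set Metric
open scoped Topology

noncomputable section

namespace Vale.Agent.P084.US

variable {X : Type*} [NormedAddCommGroup X] [NormedSpace ℝ X] [UniformConvexSpace X]

/-- Uniformly strict subgradient inequality for `‖· - a‖` on tangent points. -/
lemma strict {d : ℝ} (hd : 0 < d) :
    ∃ m > 0, ∀ a b c : X, ‖a‖ = 1 → ‖b‖ = 1 → ‖c‖ = 1 → nf a b = 0 → nf a c = 0 → d ≤ ‖c - b‖ →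
      ‖b - a‖ + nf (b - a) (c - b) + m ≤ ‖c - a‖ := by
  obtain ⟨η, hη, huc⟩ := exists_forall_closed_ball_dist_add_le_two_sub X
    (show 0 < d / 6 by positivity)
  refine ⟨η, hη, fun a b c ha hb hc hab hac hbc ↦ ?_⟩
  set p := b - a
  set q := c - a
  set P := ‖p‖
  set Q := ‖q‖
  have hP1 : 1 ≤ P := by
    have := nf_le a p
    rw [map_sub, hab, nf_one ha, zero_sub, abs_neg, abs_one] at this
    exact this
  have hQ1 : 1 ≤ Q := by
    have := nf_le a q
    rw [map_sub, hac, nf_one ha, zero_sub, abs_neg, abs_one] at this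
    exact this
  have hP2 : P ≤ 2 := (norm_sub_le b a).trans (by rw [ha, hb]; norm_num)
  have hP0 : 0 < P := by linarith
  have hQ0 : 0 < Q := by linarith
  have np : ‖P⁻¹ • p‖ = 1 := by
    rw [norm_smul_of_nonneg (inv_nonneg.mpr hP0.le)]; exact inv_mul_cancel₀ hP0.ne'
  have nq : ‖Q⁻¹ • q‖ = 1 := by
    rw [norm_smul_of_nonneg (inv_nonneg.mpr hQ0.le)]; exact inv_mul_cancel₀ hQ0.ne'
  set ε := P⁻¹ - Q⁻¹
  have h1 : |ε| ≤ ‖P⁻¹ • p - Q⁻¹ • q‖ := by
    have := nf_le a (P⁻¹ • p - Q⁻¹ • q)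
    rw [map_sub, map_smul, map_smul, map_sub, map_sub, hab, hac, nf_one ha] at this
    simp only [smul_eq_mul, zero_sub, mul_neg, mul_one] at this
    rwa [show -P⁻¹ - -Q⁻¹ = -ε by simp only [ε]; ring, abs_neg] at this
  have h2 : P⁻¹ * ‖c - b‖ ≤ ‖P⁻¹ • p - Q⁻¹ • q‖ + 2 * |ε| := by
    rw [← norm_smul_of_nonneg (inv_nonneg.mpr hP0.le)]
    calc ‖P⁻¹ • (c - b)‖ = ‖-(P⁻¹ • p - Q⁻¹ • q) + ε • q‖ := by
          congr 1; simp only [p, q, ε]; module
      _ ≤ _ := by
          refine (norm_add_le _ _).trans ?_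
          rw [norm_neg, norm_smul, Real.norm_eq_abs]
          have : Q ≤ 2 := (norm_sub_le c a).trans (by rw [ha, hc]; norm_num)
          nlinarith [abs_nonneg ε]
  have h3 : d / 6 ≤ ‖P⁻¹ • p - Q⁻¹ • q‖ := by
    have : (1 / 2 : ℝ) ≤ P⁻¹ := by rw [one_div]; exact (inv_le_inv₀ (by norm_num) hP0).mpr hP2
    nlinarith [norm_nonneg (c - b)]
  have h4 := huc np.le nq.le h3
  have h5 := (nf_le' p (P⁻¹ • p + Q⁻¹ • q)).trans h4
  rw [map_add, map_smul, map_smul, nf_self, smul_eq_mul, smul_eq_mul,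
    inv_mul_cancel₀ hP0.ne'] at h5
  have h6 : nf p q ≤ Q * (1 - η) := by
    have := mul_le_mul_of_nonneg_left h5 hQ0.le
    rw [mul_add, ← mul_assoc, mul_inv_cancel₀ hQ0.ne', one_mul] at this
    linarith
  have h7 : nf p (c - b) = nf p q - P := by
    rw [show c - b = q - p by simp only [p, q]; abel, map_sub, nf_self]
  rw [h7]
  nlinarith

/-- Points of an isometric orbit with monotone increments barely move. -/
lemma near {d : ℝ} (hd : 0 < d) :
    ∃ K : ℕ, ∀ (a : X) (v : ℕ → X), ‖a‖ = 1 →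
      (∀ i ≤ K + 2, ‖v i‖ = 1 ∧ nf a (v i) = 0) →
      (∀ i ≤ K, ‖v (i + 2) - v (i + 1)‖ = ‖v (i + 1) - v i‖ ∧
        ‖v (i + 1) - a‖ - ‖v i - a‖ ≤ nf (v (i + 1) - a) (v (i + 2) - v (i + 1))) →
      ‖v 1 - v 0‖ < d := by
  obtain ⟨m, hm, hs⟩ := strict (X := X) hd
  obtain ⟨K, hK⟩ := exists_nat_gt (4 / m)
  refine ⟨K, fun a v ha h1 h2 ↦ ?_⟩
  by_contra hcon
  push Not at hcon
  have hlen : ∀ i ≤ K + 1, ‖v (i + 1) - v i‖ = ‖v 1 - v 0‖ := by
    intro i hi
    induction i with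
    | zero => rfl
    | succ i ih => rw [(h2 i (by omega)).1, ih (by omega)]
  have grow : ∀ i ≤ K, nf (v 0 - a) (v 1 - v 0) + i * m ≤ nf (v i - a) (v (i + 1) - v i) := by
    intro i hi
    induction i with
    | zero => simp
    | succ i ih =>
      have l := hs a (v i) (v (i + 1)) ha (h1 i (by omega)).1 (h1 (i + 1) (by omega)).1
        (h1 i (by omega)).2 (h1 (i + 1) (by omega)).2 (by rw [hlen i (by omega)]; exact hcon)
      have := ih (by omega)
      push_cast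
      linarith [(h2 i (by omega)).2]
  have g := grow K le_rfl
  have b1 := abs_le.mp (nf_le (v K - a) (v (K + 1) - v K))
  have b2 := abs_le.mp (nf_le (v 0 - a) (v 1 - v 0))
  rw [hlen K (by omega)] at b1
  have b3 : ‖v 1 - v 0‖ ≤ 2 := (norm_sub_le _ _).trans (by
    rw [(h1 1 (by omega)).1, (h1 0 (by omega)).1]; norm_num)
  rw [div_lt_iff₀ hm] at hK
  linarith

end Vale.Agent.P084.US
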