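import Vale.Agent.P084.Ext

/-!
Norming functionals in uniformly smooth spaces, and transfer of uniform smoothness along a
surjective isometry of unit spheres.
-/

open Filter Set Metric
open scoped Topology

noncomputable section

namespace Vale.Agent.P084.US

variable {X Y : Type*} [NormedAddCommGroup X] [NormedSpace ℝ X] [NormedAddCommGroup Y]
  [NormedSpace ℝ Y]

/-- Uniform smoothness. -/
def USm (X : Type*) [NormedAddCommGroup X] : Prop :=
  ∀ ε > 0, ∃ δ > 0, ∀ a h : X, ‖a‖ = 1 → ‖h‖ ≤ δ → ‖a + h‖ + ‖a - h‖ ≤ 2 + ε * ‖h‖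

/-- Norming functionals. -/
def nf (a : X) : StrongDual ℝ X := (exists_dual_vector'' ℝ a).choose

lemma nf_le (a h : X) : |nf a h| ≤ ‖h‖ := by
  have := (nf a).le_of_opNorm_le (exists_dual_vector'' ℝ a).choose_spec.1 h
  simpa using this

lemma nf_le' (a h : X) : nf a h ≤ ‖h‖ := (le_abs_self _).trans (nf_le a h)

lemma nf_self (a : X) : nf a a = ‖a‖ := (exists_dual_vector'' ℝ a).choose_spec.2

lemma nf_one {a : X} (ha : ‖a‖ = 1) : nf a a = 1 := by rw [nf_self, ha]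

lemma nf_lower (a h : X) : ‖a‖ + nf a h ≤ ‖a + h‖ := by
  rw [← nf_self, ← map_add]; exact nf_le' _ _

lemma upper (hS : USm X) {ε : ℝ} (hε : 0 < ε) :
    ∃ δ > 0, ∀ a h : X, ‖h‖ ≤ δ * ‖a‖ → ‖a + h‖ ≤ ‖a‖ + nf a h + ε * ‖h‖ := by
  obtain ⟨δ, hδ, hs⟩ := hS ε hε
  refine ⟨δ, hδ, fun a h hh ↦ ?_⟩
  rcases eq_or_ne a 0 with rfl | ha
  · rw [norm_zero, mul_zero] at hh
    simp [norm_le_zero_iff.mp hh]
  have hn : 0 < ‖a‖ := norm_pos_iff.mpr ha
  have e1 : ∀ z : X, ‖‖a‖⁻¹ • z‖ = ‖a‖⁻¹ * ‖z‖ := fun z ↦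
    norm_smul_of_nonneg (inv_nonneg.mpr hn.le) z
  have := hs (‖a‖⁻¹ • a) (‖a‖⁻¹ • h) (by rw [e1]; exact inv_mul_cancel₀ hn.ne')
    (by rw [e1, inv_mul_le_iff₀ hn]; linarith)
  rw [← smul_add, ← smul_sub, e1, e1, e1] at this
  have := mul_le_mul_of_nonneg_left this hn.le
  field_simp at this
  have h2 := nf_lower a (-h)
  rw [map_neg, ← sub_eq_add_neg, ← sub_eq_add_neg] at h2
  linarith

lemma nf_eq (hS : USm X) {a : X} (ha : a ≠ 0) (ψ : StrongDual ℝ X) (hψ : ∀ h, ψ h ≤ ‖h‖)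
    (hψa : ψ a = ‖a‖) (h : X) : ψ h = nf a h := by
  have hn : 0 < ‖a‖ := norm_pos_iff.mpr ha
  have key : ∀ h : X, ∀ η > 0, ψ h ≤ nf a h + η := by
    intro h η hη
    have hε : 0 < η / (‖h‖ + 1) := by positivity
    obtain ⟨δ, hδ, hu⟩ := upper hS hε
    set t := δ * ‖a‖ / (‖h‖ + 1)
    have ht : 0 < t := by positivity
    have ht' : ‖t • h‖ ≤ δ * ‖a‖ := by
      rw [norm_smul_of_nonneg ht.le, div_mul_eq_mul_div, div_le_iff₀ (by positivity)]
      exact mul_le_mul_of_nonneg_left (by linarith) (by positivity)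
    have h1 := hu a (t • h) ht'
    have h2 : ψ (a + t • h) ≤ ‖a + t • h‖ := hψ _
    rw [map_add, hψa, map_smul, smul_eq_mul] at h2
    rw [map_smul, smul_eq_mul, norm_smul_of_nonneg ht.le] at h1
    have h3 : η / (‖h‖ + 1) * ‖h‖ ≤ η := by
      rw [div_mul_eq_mul_div, div_le_iff₀ (by positivity)]; nlinarith
    refine le_of_mul_le_mul_left (a := t) ?_ ht
    nlinarith
  have h1 : ψ h ≤ nf a h := le_of_forall_pos_le_add (key h)
  have h2 : ψ (-h) ≤ nf a (-h) := le_of_forall_pos_le_add (key (-h))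
  rw [map_neg, map_neg] at h2
  linarith

lemma nf_neg (hS : USm X) (a h : X) (ha : a ≠ 0) : nf (-a) h = -nf a h := by
  have := nf_eq hS (a := a) ha (-(nf (-a))) (fun h ↦ by
    simpa using (neg_le_abs _).trans (nf_le (-a) h)) (by
    have := nf_self (-a)
    rw [map_neg, norm_neg] at this
    simpa using this) h
  simp only [ContinuousLinearMap.neg_apply] at this
  linarith

lemma nf_continuousOn (hS : USm X) {Ω : Type*} [TopologicalSpace Ω] {s : Set Ω} {a v : Ω → X}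
    (ha : ContinuousOn a s) (hv : ContinuousOn v s) (ha1 : ∀ w ∈ s, ‖a w‖ = 1) :
    ContinuousOn (fun w ↦ nf (a w) (v w)) s := by
  intro w hw
  rw [ContinuousWithinAt, Metric.tendsto_nhds]
  intro η hη
  set h := v w
  obtain ⟨δ, hδ, hu⟩ := upper hS (show 0 < η / (4 * (‖h‖ + 1)) by positivity)
  set t := δ / (‖h‖ + 1)
  have ht : 0 < t := by positivity
  have ht' : t * ‖h‖ ≤ δ := by
    rw [div_mul_eq_mul_div, div_le_iff₀ (by positivity)]; nlinarith
  filter_upwards [Metric.tendsto_nhds.mp (ha w hw) (η * t / 8) (by positivity),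
    Metric.tendsto_nhds.mp (hv w hw) (η / 4) (by positivity), self_mem_nhdsWithin] with z h1 h2 h3
  rw [dist_eq_norm] at h1 h2
  have one : ∀ k : X, ‖k‖ = ‖h‖ → nf (a z) k ≤ nf (a w) k + η / 2 := by
    intro k hk
    have l1 := hu (a w) (t • k) (by rw [norm_smul_of_nonneg ht.le, hk, ha1 w hw]; linarith)
    have l2 := nf_lower (a z) (t • k)
    have l3 : ‖a z + t • k‖ ≤ ‖a w + t • k‖ + ‖a z - a w‖ := by
      rw [show a z + t • k = (a w + t • k) + (a z - a w) by abel]; exact norm_add_le _ _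
    rw [ha1 z h3, map_smul, smul_eq_mul] at l2
    rw [ha1 w hw, map_smul, smul_eq_mul, norm_smul_of_nonneg ht.le, hk] at l1
    have l4 : η / (4 * (‖h‖ + 1)) * ‖h‖ ≤ η / 4 := by
      rw [div_mul_eq_mul_div, div_le_iff₀ (by positivity)]; nlinarith
    refine le_of_mul_le_mul_left (a := t) ?_ ht
    nlinarith
  have p1 := one h rfl
  have p2 := one (-h) (norm_neg h)
  rw [map_neg, map_neg] at p2
  have p3 := abs_le.mp (nf_le (a z) (v z - h))
  rw [map_sub] at p3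
  rw [Real.dist_eq, abs_lt]
  constructor <;> linarith

/-- Uniform smoothness passes to the range of a surjective odd sphere isometry. -/
lemma transfer (hS : USm X) {F : X → Y} {G : Y → X} (e : SphereExt F G)
    (hodd : ∀ a, F (-a) = -F a) : USm Y := by
  intro ε hε
  obtain ⟨δ, hδ, hs⟩ := hS (ε / 24) (by positivity)
  refine ⟨min (min (1 / 4) (ε / 16)) (min (δ / 8) (1 / 16)), by positivity, fun a h ha hh ↦ ?_⟩
  simp only [le_min_iff] at hh
  obtain ⟨⟨hh1, hh2⟩, hh3, hh4⟩ := hh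
  set P := ‖a + h‖
  set Q := ‖a - h‖
  have hP : 1 - ‖h‖ ≤ P := by
    have := norm_sub_norm_le a (-h); rw [norm_neg, sub_neg_eq_add, ha] at this; exact this
  have hQ : 1 - ‖h‖ ≤ Q := by
    have := norm_sub_norm_le a h; rw [ha] at this; exact this
  have hP' : P ≤ 1 + ‖h‖ := by simpa [P, ha] using norm_add_le a h
  have hQ' : Q ≤ 1 + ‖h‖ := by simpa [Q, ha] using norm_sub_le a h
  have hP0 : 0 < P := by linarith
  have hQ0 : 0 < Q := by linarith
  have hPQ : |P - Q| ≤ 2 * ‖h‖ := abs_le.mpr ⟨by linarith, by linarith⟩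
  set p' := P⁻¹ • (a + h)
  set q' := Q⁻¹ • (a - h)
  have hp : ‖p'‖ = 1 := by
    rw [norm_smul_of_nonneg (inv_nonneg.mpr hP0.le)]; exact inv_mul_cancel₀ hP0.ne'
  have hq : ‖q'‖ = 1 := by
    rw [norm_smul_of_nonneg (inv_nonneg.mpr hQ0.le)]; exact inv_mul_cancel₀ hQ0.ne'
  have hd : ‖p' - q'‖ ≤ 8 * ‖h‖ := by
    have ep : P • p' = a + h := by simp [p', smul_smul, hP0.ne']
    have eq' : Q • q' = a - h := by simp [q', smul_smul, hQ0.ne']
    have e1 : P • (p' - q') = (a + h) - (a - h) + (Q - P) • q' := by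
      rw [smul_sub, sub_smul, ep, eq']; abel
    have e2 := congrArg norm e1
    rw [norm_smul_of_nonneg hP0.le] at e2
    have e3 : ‖(a + h) - (a - h) + (Q - P) • q'‖ ≤ 4 * ‖h‖ := by
      refine (norm_add_le _ _).trans ?_
      rw [norm_smul, hq, mul_one, Real.norm_eq_abs, abs_sub_comm,
        show (a + h) - (a - h) = h + h by abel]
      linarith [norm_add_le h h]
    have : (1 / 2) * ‖p' - q'‖ ≤ P * ‖p' - q'‖ :=
      mul_le_mul_of_nonneg_right (by linarith) (norm_nonneg _)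
    linarith
  -- move to the domain
  set x := G p'
  set y := G q'
  have hx : ‖x‖ = 1 := by rw [e.symm.hnorm, hp]
  have hy : ‖y‖ = 1 := by rw [e.symm.hnorm, hq]
  have hcone : ∀ c d : X, ‖c‖ = 1 → ‖d‖ = 1 → ‖F c - F d‖ = ‖c - d‖ := fun c d hc hd' ↦ by
    simpa [hc, hd'] using e.hcone c d
  have hdiff : ‖x - y‖ = ‖p' - q'‖ := by
    rw [← hcone x y hx hy, e.right, e.right]
  have hsum : ‖x + y‖ = ‖p' + q'‖ := by
    have := hcone x (-y) hx (by rw [norm_neg, hy])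
    rw [hodd, e.right, e.right, sub_neg_eq_add, sub_neg_eq_add] at this
    exact this.symm
  set m := ‖x + y‖ / 2
  have hm1 : 1 - ‖x - y‖ / 2 ≤ m := by
    have : ‖(x + y) + (x - y)‖ ≤ ‖x + y‖ + ‖x - y‖ := norm_add_le _ _
    rw [show (x + y) + (x - y) = (2 : ℝ) • x by rw [two_smul]; abel, norm_smul, hx] at this
    norm_num at this
    simp only [m]; linarith
  have hm0 : 1 / 2 ≤ m := by linarith [hdiff, hd]
  have hmpos : 0 < m := by linarith
  set a' := (2 * m)⁻¹ • (x + y)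
  set h' := (2 * m)⁻¹ • (x - y)
  have hi : (0 : ℝ) ≤ (2 * m)⁻¹ := by positivity
  have h2m : 2 * m = ‖x + y‖ := by simp only [m]; ring
  have ha' : ‖a'‖ = 1 := by
    rw [norm_smul_of_nonneg hi, ← h2m, inv_mul_cancel₀ (by positivity)]
  have hi1 : (2 * m)⁻¹ ≤ 1 := inv_le_one_of_one_le₀ (by linarith)
  have hh' : ‖h'‖ ≤ ‖x - y‖ := by
    rw [norm_smul_of_nonneg hi]; exact mul_le_of_le_one_left (norm_nonneg _) hi1
  have := hs a' h' ha' (by linarith [hdiff])
  have e4 : a' + h' = m⁻¹ • x := by simp only [a', h']; module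
  have e5 : a' - h' = m⁻¹ • y := by simp only [a', h']; module
  rw [e4, e5, norm_smul_of_nonneg (inv_nonneg.mpr hmpos.le),
    norm_smul_of_nonneg (inv_nonneg.mpr hmpos.le), hx, hy] at this
  have hmain : 2 ≤ 2 * m + ε / 24 * ‖x - y‖ := by
    have := mul_le_mul_of_nonneg_left this hmpos.le
    rw [mul_add, mul_one, mul_inv_cancel₀ hmpos.ne', mul_add,
      show m * (ε / 24 * ‖h'‖) = ε / 24 * (m * ‖h'‖) by ring] at this
    have e6 : m * ‖h'‖ = ‖x - y‖ / 2 := by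
      rw [norm_smul_of_nonneg hi]; field_simp
    rw [e6] at this
    nlinarith [norm_nonneg (x - y)]
  have hkey : 2 - ε / 3 * ‖h‖ ≤ ‖p' + q'‖ := by
    rw [← hsum, ← h2m]
    have : ε / 24 * ‖x - y‖ ≤ ε / 24 * (8 * ‖h‖) :=
      mul_le_mul_of_nonneg_left (hdiff ▸ hd) (by positivity)
    linarith
  have hid : ((P + Q) / 2) • (p' + q') + ((P - Q) / 2) • (p' - q') = (2 : ℝ) • a := by
    have e7 : P • p' = a + h := by simp [p', smul_smul, hP0.ne']
    have e8 : Q • q' = a - h := by simp [q', smul_smul, hQ0.ne']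
    calc _ = P • p' + Q • q' := by module
      _ = _ := by rw [e7, e8, two_smul]; abel
  have hn := congrArg norm hid
  rw [norm_smul, ha, Real.norm_ofNat, mul_one] at hn
  have hn2 : (P + Q) / 2 * ‖p' + q'‖ - |P - Q| / 2 * ‖p' - q'‖ ≤ 2 := by
    refine le_trans ?_ hn.le
    refine le_trans (le_of_eq ?_) (norm_sub_le_norm_add _ _)
    rw [norm_smul_of_nonneg (by positivity), norm_smul, Real.norm_eq_abs, abs_div,
      abs_of_pos (by norm_num : (0 : ℝ) < 2)]
  have h5 : (P + Q) / 2 * (2 - ε / 3 * ‖h‖) ≤ (P + Q) / 2 * ‖p' + q'‖ :=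
    mul_le_mul_of_nonneg_left hkey (by positivity)
  have h6 : |P - Q| / 2 * ‖p' - q'‖ ≤ ‖h‖ * (8 * ‖h‖) :=
    mul_le_mul (by linarith) hd (norm_nonneg _) (norm_nonneg _)
  have h7 : (P + Q) / 2 * (ε / 3 * ‖h‖) ≤ 3 / 2 * (ε / 3 * ‖h‖) :=
    mul_le_mul_of_nonneg_right (by linarith) (by positivity)
  have h8 : ‖h‖ * (8 * ‖h‖) ≤ ε / 2 * ‖h‖ := by
    rw [mul_comm (ε / 2)]; exact mul_le_mul_of_nonneg_left (by linarith) (norm_nonneg _)
  linarith

end Vale.Agent.P084.US
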